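import Vale.Agent.P259.Final.Reduce
import Vale.Agent.P259.Free.Cone
import Vale.Agent.P259.Free.Rep
import Vale.Agent.P259.Pi.RealPi

/-!
# P259, Q1: the homotopy hypothesis

Every coherator has a disc functor whose fundamental groupoid functor preserves weak equivalences
and induces an equivalence of the localizations.
-/

namespace Vale.Agent.Results.P259.HomotopyHypothesis

open Vale.Agent.P259

theorem result :
    Nonempty Coherator ∧ (∀ C : Coherator, Hypothesis C ∧ C.C.UnitsIndep) ∧
      ∀ W : Tower, W.Admissible → ∃ C : Coherator, C.C = W.C ∧ Hypothesis C :=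
  have hs : Free.SemiCtrCone := Free.semiCtrCone
  have hR : Spec.RepCtrCone := Free.repCtrCone
  have hpi : Spec.RealPi := Pi.realPi Free.repExists Free.repCtrZig realWC Free.sysFills
  ⟨nonempty_coherator,
    fun C => ⟨hypothesis_of_free hs hR hpi C, unitsIndep_of_free hs hR hpi C⟩,
    fun W h => ⟨W.toCoherator h, rfl, hypothesis_of_free hs hR hpi _⟩⟩

end Vale.Agent.Results.P259.HomotopyHypothesis
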